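import Vale.Agent.P287Q.G.PA.Defs
import Vale.Agent.P269.Pt.Bnd

/-!
# The genus of a stable map is bounded below
-/

namespace Vale.Agent.P269

open Set Cv

theorem St.low : St.Low := by
  intro Λ R J ν κ _ _ _ m θ g d hs ht
  have hT : ∀ V, V ∈ m.finite_cmp.toFinset ↔ ∃ z ∈ univ, V = m.cmp z := fun V =>
    m.finite_cmp.mem_toFinset.trans ⟨fun ⟨z, e⟩ => ⟨z, trivial, e.symm⟩, fun ⟨z, _, e⟩ => ⟨z, e.symm⟩⟩
  have a := AC.sat_univ.degOn_eq_sum (omega m.R m.N ∅) hT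
  have b := AC.sat_univ.degOn_eq_sum (m.ω * bz m.L θ) hT
  have c : 0 ≤ ∑ V ∈ m.finite_cmp.toFinset,
      (degOn (omega m.R m.N ∅) V + 2 * degOn (m.ω * bz m.L θ) V) := Finset.sum_nonneg fun V hV => by
    obtain ⟨z, -, rfl⟩ := (hT V).1 hV
    obtain ⟨k, e⟩ := AC.degOn_omega_cmp (c := m.toAC) z
    have := hs _ (AC.sat_cmp z).1 ⟨z, AC.mem_cmp_self z⟩
    omega
  rw [Finset.sum_add_distrib, ← Finset.mul_sum, ← a, ← b, degOn_univ, degOn_univ, deg_omega,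
    deg_mul, AC.deg_ω, ht.1, Cv.deg_bz] at c
  simp only [ht.2, Finset.card_empty] at c
  omega

end Vale.Agent.P269
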