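import Vale.Agent.P287Q.G.PA.Defs
import Vale.Agent.P269.Gen.Act
import Vale.Agent.P287Q.G.Vir.RD

/-!
# The projective bundle and its fixed components as families
-/

set_option linter.unusedSectionVars false

namespace Vale.Agent.P269

open P291Z Set Function MvPolynomial

variable {R J K : Type} [Fintype R] [Fintype J] [Fintype K] [DecidableEq R] {r : ℕ}

/-- The line bundles of the fixed component `n` in terms of those of the base. -/
def Mv (a : Fin (r + 1) → R → ℤ) (n : Fin (r + 1)) : Option R → R → ℤ :=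
  fun o => o.elim (-a n) fun s => Pi.single s 1

/-- The fields of the fixed component `n` on the slice `y n = 1`. -/
noncomputable def σv (J : Type) (n : Fin (r + 1)) :
    J ⊕ Fin (r + 1) → MvPolynomial J (MvPolynomial Empty ℂ) :=
  Sum.elim X fun l => if l = n then 1 else 0

theorem dgV_eq (a : Fin (r + 1) → R → ℤ) (n : Fin (r + 1)) (β : R → ℤ) :
    dgV a n β = fun o => ∑ s, Mv a n o s * β s := by
  funext o
  cases o <;> simp [dgV, Mv, Pi.single_apply]

namespace PA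

variable {F : Fam Empty Empty R J K} {a : Fin (r + 1) → R → ℤ} {θ : Option R → ℤ}

theorem cp_empty (F : Fam Empty Empty R J K) : F.Cp := inferInstanceAs (CompactSpace (Quot _))

theorem exists_big {S Λ : Type} [Fintype S] [Fintype Λ] {F : Fam S Λ R J K} (h : F.Good) :
    ∃ k, F.Big k :=
  let ⟨θ₀, N, h⟩ := h.ample
  ⟨_, θ₀, N, h, le_rfl⟩

theorem nice_of_abs (h : F.Good) (hr : ∃ K₀, F.Reg K₀) (ha : F.Abs) (hB : F.B = univ) :
    F.Nice 0 where
  toGood := h
  reg := hr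
  sm := ⟨0, fun l => ⟨fun _ => l, .of_map_nhds (.of_forall fun _ => continuousAt_const)
    (.of_forall fun _ => continuous_subtype_val.continuousAt) analyticAt_const
    (injective_of_subsingleton _) fun _ hs => Filter.mem_of_superset Filter.univ_mem fun y _ =>
      Subsingleton.elim l y ▸ (mem_of_mem_nhds hs :), rfl⟩⟩
  pol := ⟨∅, nofun, ha.2.trans (eq_univ_of_forall fun _ _ e => nomatch e).symm⟩
  sh := ⟨0, nofun, 0, 1, nofun, linearIndependent_empty_type, nofun, fun _ a b => (b (ha.1 a)).elim,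
    fun _ l _ => (hB.ge (mem_univ l) |> fun _ => ⟨analyticAt_const, one_ne_zero⟩),
    fun _ a b => (b (ha.1 a)).elim, fun _ a b => (b (ha.1 a)).elim, fun _ _ _ _ _ =>
      iff_of_true (ha.2.ge (mem_univ _)) fun _ a b => (b (ha.1 a)).elim, fun _ _ => rfl⟩

theorem tg_abs (h : F.Tg) : F.Abs := ⟨fun _ a => (a (h.mov.ge (mem_univ _))).elim, h.E⟩

theorem tg_nice (h : F.Tg) : F.Nice 0 := nice_of_abs h.toGood h.reg (tg_abs h) h.B

theorem tg_zer (h : F.Tg) : F.zer = ∅ := disjoint_univ.1 (h.mov ▸ h.zer_base)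

omit [DecidableEq R] in
theorem mem_cone_proj (hB : F.B = univ) (hE : F.E = univ) (hz : F.zer = ∅) {z} :
    z ∈ (F.proj a θ).cone ↔ (z.1, z.2 ∘ .inl) ∈ F.cone ∧ z.2 ∘ .inr ≠ 0 := by
  have e : ∀ k, (F.proj a θ).eqn z k = F.eqn (z.1, z.2 ∘ .inl) k := fun k =>
    (congrArg _ (map_rename _ _ _)).trans (eval_rename _ _ _)
  simp only [Fam.mem_cone, e, Fam.bs, hB, hE, hz]
  exact ⟨fun h => ⟨⟨⟨trivial, trivial, nofun⟩, h.2.1.1, h.2.2⟩, h.2.1.2⟩,
    fun h => ⟨⟨trivial, trivial, nofun⟩, ⟨h.1.2.1, h.2⟩, h.1.2.2⟩⟩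

omit [DecidableEq R] in
theorem mem_cone_vx {n : Fin (r + 1)} {z} : z ∈ ((F.proj a θ).vx n).cone ↔
    z ∈ (F.proj a θ).cone ∧ ∀ l ≠ n, z.2 (.inr l) = 0 :=
  ⟨fun h => ⟨⟨h.1, ⟨h.2.1.1, trivial, nofun⟩, h.2.2⟩, fun l hl => h.2.1.2.2 _ ⟨l, hl, rfl⟩⟩,
    fun h => ⟨trivial, ⟨h.1.2.1.1, trivial, fun _ ⟨l, hl, e⟩ => e ▸ h.2 l hl⟩, h.1.2.2⟩⟩

open Classical in
/-- the data of a projective bundle with the movable fibre coordinates `T` -/
noncomputable def rdP (K₀ : RD R) (a : Fin (r + 1) → R → ℤ) (T : Set (Fin (r + 1))) :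
    RD (Option R) := ⟨K₀.n + T.ncard, fun o => o.elim 0 K₀.γ + ∑ l with l ∈ T, o.elim 1 (a l)⟩

theorem proj_reg (h : F.Tg) {K₀ : RD R} (hR : F.Reg K₀) {T : Set (Fin (r + 1))} {m z}
    (hm : ∀ j, j ∈ m ↔ Sum.elim (fun _ => True) (· ∈ T) j) :
    Fam.Reg { F.proj a θ with mov := m, zer := z } (rdP K₀ a T) := by
  classical
  have e : ∀ (w : R → ℤ) (o : Option R), o.elim 0 w =
      ∑ r, w r * (Pi.single (some r) 1 : Option R → ℤ) o := fun w o => by
    cases o <;> simp [Pi.single_apply]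
  have c : ∀ y ∈ Fam.cone { F.proj a θ with mov := m, zer := z }, (y.1, y.2 ∘ .inl) ∈ F.cone :=
    fun y b => ((mem_cone_proj (a := a) (θ := θ) h.B h.E (tg_zer h)).1
      ⟨trivial, ⟨b.2.1.1, trivial, nofun⟩, b.2.2⟩).1
  have q : ∀ y k, (F.proj a θ).eqn y k = F.eqn (y.1, y.2 ∘ .inl) k := fun y k =>
    (congrArg _ (map_rename _ _ _)).trans (eval_rename _ _ _)
  have s : ∀ y k (η : J ⊕ Fin (r + 1) → ℂ), ∑ j, (F.proj a θ).jac y k j * η j =
      ∑ j, F.jac (y.1, y.2 ∘ .inl) k j * η (.inl j) := fun y k η =>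
    (Vir.hasDerivAt_eval _ _ _).unique ((Vir.hasDerivAt_eval _ _ _).congr_of_eventuallyEq
      (.of_forall fun ε => q (y.1, fun j => y.2 j + ε * η j) k))
  refine hR.free (fun r => Pi.single (some r) 1) id (· ∘ .inl) .inl (fun l : T => .inr l.1)
    (fun y hy => (hR.loc _ (c y hy)).imp fun K₁ b => ⟨fun v => ?_,
      ((Continuous.tendsto (f := fun y : (Empty → ℂ) × (J ⊕ Fin (r + 1) → ℂ) => (y.1, y.2 ∘ .inl))
        (by fun_prop) y).eventually b.cut).mono fun y' d _ f k => (q y' k).trans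
          (d ⟨h.B.ge trivial, h.E.ge trivial, fun _ g => ((tg_zer h).le g).elim⟩
            (fun k g => (q y' k).symm.trans (f k g)) k)⟩)
    (fun y => analyticAt_pi_iff.2 fun j => (ContinuousLinearMap.proj (R := ℂ)
      (φ := fun _ : J ⊕ Fin (r + 1) => ℂ) (.inl j)).analyticAt y) (fun j => e _) (fun _ _ _ => rfl)
    Sum.inl_injective (Sum.inr_injective.comp Subtype.val_injective) (by simp) c
    (fun y _ η => RP.mem_vert.trans ?_)
    (by rw [← Nat.card_eq_fintype_card, Nat.card_coe_set_eq]; rfl) fun o => ?_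
  · obtain ⟨η, -, d⟩ := b.ind v
    exact ⟨Sum.elim η 0, Sum.rec (fun _ f => (f ((hm _).2 trivial)).elim) fun _ _ => rfl,
      fun k f => (s _ _ _).trans (d k f)⟩
  · refine ⟨fun b => ⟨Sum.rec (fun j d => (d ⟨j, rfl⟩).elim) fun l _ d =>
      b.1 _ fun f => d ⟨⟨l, (hm _).1 f⟩, rfl⟩, η ∘ .inl, RP.mem_vert.2 ⟨fun j d =>
        (d (h.mov.ge trivial)).elim, fun k => (s _ _ _).symm.trans (b.2 k)⟩, fun _ _ => rfl⟩,
      fun ⟨b, η₀, d, f⟩ => ?_⟩
    obtain rfl : η₀ = fun j => η (.inl j) := funext fun j => (f j (by simp)).symm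
    exact ⟨Sum.rec (fun _ f => (f ((hm _).2 trivial)).elim) fun l g => b _ (by simp)
      fun ⟨l', i⟩ => g ((hm _).2 (Sum.inr.inj i ▸ l'.2)),
      fun k => (s _ _ _).trans ((RP.mem_vert.1 d).2 k)⟩
  · rw [← e, ← Finset.sum_subtype (p := (· ∈ T)) {l | l ∈ T} (by simp)
      fun l => (F.proj a θ).w (.inr l) o]
    rfl

theorem proj_tg (h : F.Tg) (hE : (F.proj a θ).Good) : (F.proj a θ).Tg :=
  ⟨hE, h.reg.elim fun _ b => ⟨_, proj_reg h b (T := univ) fun j => by cases j <;> rfl⟩,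
    rfl, rfl, rfl⟩

omit [DecidableEq R] in
theorem vx_abs (n : Fin (r + 1)) : ((F.proj a θ).vx n).Abs := ⟨(compl_compl _).subset, rfl⟩

theorem vx_amp {n : Fin (r + 1)} {θ₀ N} (h : (F.proj a θ).Ample θ₀ N) :
    ((F.proj a θ).vx n).Ample θ₀ N :=
  ⟨h.1, h.2.1, fun c hc z hz => h.2.2 c hc z (mem_cone_vx.1 hz).1⟩

theorem vx_nice (h : F.Tg) (hE : (F.proj a θ).Good) (n : Fin (r + 1)) :
    ((F.proj a θ).vx n).Nice 0 := by
  refine nice_of_abs ⟨⟨hE.hom, hE.homS, hE.openU, hE.invU, hE.closedE, hE.invE,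
    fun _ _ _ _ _ => trivial, disjoint_compl_right, hE.lcB, hE.invB⟩, hE.deg, hE.freeB, hE.properB,
    fun t ht z hz => hE.free t ht z (mem_cone_vx.1 hz).1,
    fun t z z' ht hz hz' => hE.proper t z z' ht (mem_cone_vx.1 hz).1 (mem_cone_vx.1 hz').1,
    fun B' hB cB => ?_, hE.ample.imp fun _ e => e.imp fun _ => vx_amp, ⟨.inr n, by simp⟩⟩
    (h.reg.elim fun _ b => ⟨_, proj_reg h b (T := {n}) fun j => by cases j <;> simp⟩) (vx_abs n) rfl
  · obtain ⟨C, sC, cC, e⟩ := hE.cpt B' hB cB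
    refine ⟨C ∩ ⋂ l ≠ n, {z | z.2 (.inr l) = 0}, fun z hz => mem_cone_vx.2 ⟨sC hz.1,
      fun l hl => mem_iInter₂.1 hz.2 l hl⟩, cC.inter_right (isClosed_biInter fun l _ =>
        isClosed_eq (by fun_prop) continuous_const), fun z hz hz' => ?_⟩
    obtain ⟨t, ht, e⟩ := e z (mem_cone_vx.1 hz).1 hz'
    exact ⟨t, ht, e, mem_iInter₂.2 fun l hl =>
      mul_eq_zero_of_right _ ((mem_cone_vx.1 hz).2 l hl)⟩

theorem vx_big {k : ℕ} (h : (F.proj a θ).Big k) (n : Fin (r + 1)) :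
    ((F.proj a θ).vx n).Big k := h.imp fun _ e => e.imp fun _ e => ⟨vx_amp e.1, e.2⟩

theorem pres_vx (h : F.Tg) (n : Fin (r + 1)) :
    F.Pres ((F.proj a θ).vx n) .inl (fun _ : Unit => .inr n) (Mv a n) (σv J n) where
  inj := Sum.inl_injective
  wl := funext nofun
  B := h.B.symm
  σ_φ _ := rfl
  σ_s _ := if_pos rfl
  hom := by
    classical
    rintro (j | l) α hα s
    · obtain rfl : α = Finsupp.single j 1 := by simpa [σv, support_X] using hα
      simp [Fam.proj, Mv, Pi.single_apply, Finsupp.single_apply]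
    · by_cases e : l = n
      · obtain rfl : α = 0 := by simpa [σv, e, coeff_one, eq_comm] using hα
        simp [Fam.proj, Mv, Pi.single_apply, e]
      · simp [σv, e] at hα
  homS := fun _ _ _ _ _ => nofun
  lat_inj d e := funext fun s => (congrFun (dgV_eq a n d) (some s)).trans (e _)
  lat_ker d' e := ⟨d' ∘ some, by
    rw [← dgV_eq]
    funext o
    cases o
    · simpa [Fam.proj, dgV, eq_neg_iff_add_eq_zero] using e ()
    · rfl⟩
  lat_onto m := ⟨fun o => o.elim (m ()) 0, fun _ => by simp [Fam.proj]⟩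
  cone z := by
    rw [mem_cone_vx, mem_cone_proj h.B h.E (tg_zer h)]
    constructor
    · rintro ⟨⟨c, c'⟩, e⟩
      have h0 : z.2 (.inr n) ≠ 0 := fun e' => c' (funext fun l => by
        by_cases hl : l = n
        · exact hl ▸ e'
        · exact e l hl)
      refine ⟨fun o => o.elim (z.2 (.inr n)) 1, isUnit_pi_iff.2 fun o => ?_, _, c,
        Prod.ext (Subsingleton.elim _ _) (funext ?_)⟩
      · cases o
        · exact h0
        · exact one_ne_zero
      · rintro (j | l)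
        · simp [Wt.actT, Fam.proj, evσ, evz, σv]
        · by_cases hl : l = n
          · simp [Wt.actT, Fam.proj, evσ, evz, σv, hl]
          · simp [Wt.actT, Fam.proj, evσ, evz, σv, hl, e l hl]
    · rintro ⟨t, ht, y, c, rfl⟩
      have ht' := isUnit_pi_iff.1 ht
      refine ⟨⟨?_, fun e => ?_⟩, fun l hl => by simp [Wt.actT, evσ, evz, σv, hl]⟩
      · refine (congrArg (· ∈ F.cone) (Prod.ext (Subsingleton.elim _ _) (funext fun j => ?_))).mp
          (h.cone_act (t := (1, t ∘ some))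
            (Prod.isUnit_iff.2 ⟨isUnit_one, isUnit_pi_iff.2 fun _ => ht' _⟩) c)
        simp [Wt.actT, Fam.proj, evσ, evz, σv]
      · have := congrFun e n
        simp only [Wt.actT, evσ, evz, σv, comp_apply, Sum.elim_inr, if_true, map_one, mul_one,
          Finset.univ_eq_empty, Finset.prod_empty, one_mul] at this
        exact prod_zpow_ne ht' _ this
  mov j := by simp [h.mov]
  zer j := by simp [tg_zer h]
  E _ _ _ _ := h.E.ge (mem_univ _)
  drop _ _ a := .inl (not_not.1 a)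
  E' _ _ _ _ _ := iff_of_true trivial ⟨1, isUnit_one, fun _ _ a b => (b (not_not.1 a)).elim⟩

end PA

end Vale.Agent.P269
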