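import Vale.Agent.P287Q.G.PA.Mul
import Vale.Agent.P287Q.G.PA.Vx
import Vale.Agent.P287Q.G.PA.Low
import Vale.Agent.P287Q.G.Asm.Ci

/-!
# The twisted invariants of the fixed components
-/

set_option linter.unusedSectionVars false

namespace Vale.Agent.P269

open P291Z Set Function Fock

namespace PA

section mon

variable {V : Type} [AddCommGroup V] [Module ℂ V] (p : Par ℂ V)

/-- The monomial of descendant insertions. -/
noncomputable def mon (l : List (ℕ × V)) : Fock.S (p.fs ℕ) :=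
  (l.map fun x => ι _ (Finsupp.single x.1 x.2)).prod

variable {p}

theorem mon_ind {P : Fock.S (p.fs ℕ) → Prop} (h : ∀ l, P (mon p l))
    (hadd : ∀ x y, P x → P y → P (x + y)) (hsmul : ∀ (a : ℂ) x, P x → P (a • x)) (y) : P y := by
  have h0 : P 0 := by simpa using hsmul 0 _ (h [])
  have key : y ∈ Submodule.span ℂ (range (mon p)) := by
    induction y using Fock.induction with
    | h1 => exact Submodule.subset_span ⟨[], rfl⟩
    | hι v x hx =>
      induction hx using Submodule.span_induction with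
      | mem x hx =>
        obtain ⟨l, rfl⟩ := hx
        induction v using Finsupp.induction_linear with
        | zero => simp
        | add a b ha hb => rw [map_add, add_mul]; exact add_mem ha hb
        | single m a => exact Submodule.subset_span ⟨(m, a) :: l, rfl⟩
      | zero => simp
      | add x y _ _ hx hy => rw [mul_add]; exact add_mem hx hy
      | smul c x _ hx => rw [mul_smul_comm]; exact Submodule.smul_mem _ _ hx
    | hadd x y hx hy => exact add_mem hx hy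
    | hsmul c x hx => exact Submodule.smul_mem _ _ hx
  induction key using Submodule.span_induction with
  | mem x hx => obtain ⟨l, rfl⟩ := hx; exact h l
  | zero => exact h0
  | add x y _ _ hx hy => exact hadd _ _ hx hy
  | smul c x _ hx => exact hsmul _ _ hx

theorem map_mon (l : List (ℕ × V)) :
    Fock.map _ (Deg.isEv_inl _ (Par.triv ℂ Deg.NN)) (mon p l) = monT p l [] := by
  simp [mon, monT, map_list_prod, Function.comp_def]

theorem par_mon (l : List (ℕ × V)) : par _ (mon p l) = mon p (l.map (Prod.map id p.σ)) := by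
  simp [mon, map_list_prod, Function.comp_def]

end mon

section ser

variable {S Λ R J K : Type} [Fintype S] [Fintype Λ] [Fintype R] [Fintype J] [Fintype K]
  [DecidableEq R] {F : Fam S Λ R J K} {k : ℕ} {e : F.Ex} {A : Set ((Λ → ℂ) × (J → ℂ))}
  {V : Type} [AddCommGroup V] [Module ℂ V] {p : Par ℂ V} {i : V →ₗ[ℂ] H (F.X A)}

theorem cor_nil (δ : J → ℕ) (A' A'' : Set ((Λ → ℂ) × (J → ℂ))) (d j l₁ l₂) :
    F.cor k e δ A A' d j l₁ l₂ [] = F.cor k e δ A A'' d j l₁ l₂ [] := by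
  unfold Fam.cor
  congr 2
  funext s
  exact s.elim0

theorem ser0_mon (hS : St.Spec) (hN : F.Nice 0) (hC : F.Cp) (hk : F.Big k) (he : F.ExOk k e)
    (hA : F.cone ⊆ A) (hi : IsEv p (parH _) i) (d j l) :
    F.ser0 k e p i d j (mon p l) = F.cor k e 0 A A d j (l.map (Prod.map id i)) [] [] := by
  rw [Fam.ser0, LinearMap.comp_apply, AlgHom.toLinearMap_apply, map_mon]
  exact (hS F 0 k e (A' := A) p i hN hC hk he hA hi).1 rfl d j l []

theorem ser0_par (hS : St.Spec) (hP : St.Par) (hN : F.Nice 0) (hC : F.Cp) (hk : F.Big k)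
    (he : F.ExOk k e) (hA : F.cone ⊆ A) (hi : IsEv p (parH _) i) (d j x) :
    F.ser0 k e p i d j (par _ x) = F.ser0 k e p i d j x := by
  induction x using mon_ind with
  | h l =>
    rw [par_mon, ser0_mon hS hN hC hk he hA hi, ser0_mon hS hN hC hk he hA hi,
      ← hP F 0 k e hA ((F.dvs_subset 0).trans hA) hN hC hk he d j (l.map (Prod.map id i)) [] [],
      List.map_map, List.map_map]
    exact congrArg (F.cor k e 0 A A d j · [] [])
      (List.map_congr_left fun x _ => Prod.ext rfl (hi x.2).symm)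
  | hadd x y hx hy => simp only [map_add, hx, hy]
  | hsmul a x hx => simp only [map_smul, hx]

theorem cor_low (hS : St.Supp) (hL : St.Low) (hN : F.Nice 0) (hk : F.Big k) {d j l}
    (h : F.cor k e 0 A A d j l [] [] ≠ 0) : 0 ≤ 3 * j + l.length + ∑ s, F.θ s * d s := by
  unfold Fam.cor at h
  obtain ⟨⟨m, -, h1, h2, -⟩, -⟩ := hS F 0 k _ d (fun _ => 0) _ _ hN hk fun h0 => h <|
    (congrArg (F.inv k _ d · _ _) (funext fun n => by cases n <;> simp)).trans h0
  simpa using hL m _ _ _ h1 h2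

theorem ser0_low (hS : St.Spec) (hS' : St.Supp) (hL : St.Low) (hN : F.Nice 0) (hC : F.Cp)
    (hk : F.Big k) (hA : F.cone ⊆ A) (hi : IsEv p (parH _) i) (d x) :
    ∃ J₀ : ℤ, ∀ e j, F.ExOk k e → F.ser0 k e p i d j x ≠ 0 → J₀ ≤ j := by
  induction x using mon_ind with
  | h l =>
    refine ⟨-|l.length + ∑ s, F.θ s * d s|, fun e j he h => ?_⟩
    rw [ser0_mon hS hN hC hk he hA hi] at h
    have := cor_low hS' hL hN hk h
    rw [List.length_map] at this
    have := le_abs_self ((l.length : ℤ) + ∑ s, F.θ s * d s)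
    have := abs_nonneg ((l.length : ℤ) + ∑ s, F.θ s * d s)
    omega
  | hadd x y hx hy =>
    obtain ⟨a, ha⟩ := hx
    obtain ⟨b, hb⟩ := hy
    refine ⟨min a b, fun e j he h => ?_⟩
    by_cases h1 : F.ser0 k e p i d j x = 0
    · rw [map_add, h1, zero_add] at h
      exact (min_le_right _ _).trans (hb e j he h)
    · exact (min_le_left _ _).trans (ha e j he h1)
  | hsmul c x hx =>
    obtain ⟨a, ha⟩ := hx
    exact ⟨a, fun e j he h => ha e j he fun h1 => h (by rw [map_smul, h1, smul_zero])⟩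

theorem ser0_congr {S' Λ' R' J' K' : Type} [Fintype S'] [Fintype Λ'] [Fintype R'] [Fintype J']
    [Fintype K'] [DecidableEq R'] {F' : Fam S' Λ' R' J' K'} {k' : ℕ} {e' : F'.Ex} {A'}
    {i' : V →ₗ[ℂ] H (F'.X A')} {d d' j}
    (h : ∀ (l₁ : List (ℕ × V)) l₂, F.cor k e 0 A A d j (l₁.map (Prod.map id i)) l₂ [] =
      F'.cor k' e' 0 A' A' d' j (l₁.map (Prod.map id i')) l₂ []) :
    F.ser0 k e p i d j = F'.ser0 k' e' p i' d' j := by
  simp only [Fam.ser0, Fam.serA, h]

theorem ser0_rs (hR : St.Res) (hN : F.Nice 0) (hC : F.Cp) (hk : F.Big k) (he : F.ExOk k e)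
    (hA : F.cone ⊆ A) (d j) :
    F.ser0 k e p i d j = F.ser0 k e p ((F.rs hA).toLinearMap ∘ₗ i) d j :=
  ser0_congr fun l₁ l₂ => by
    rw [hR F 0 k e hA ((F.dvs_subset 0).trans hA) hN hC hk he, List.map_map]
    exact cor_nil 0 _ _ d j _ l₂

theorem exOk (hS : St.SelC) (hG : F.Good) (hk : F.Big k) (Θ) : F.ExOk k (F.exT Θ) :=
  (hS F k Θ univ 1 hG hk (subset_univ _) (one_mem _)).1

theorem isEv_map {X Y : Type} [TopologicalSpace X] [TopologicalSpace Y] (f : C(X, Y)) :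
    IsEv (parH Y) (parH X) (H.mapA f).toLinearMap := fun c => by
  obtain ⟨a, ha, rfl⟩ := hcls_surj c
  change (parH X).σ (H.map f _) = H.map f _
  rw [parH_hcls ha, H.map_hcls f ha, H.map_hcls f (cocycle_par ha),
    parH_hcls (cocycle_pull f.continuous ha)]
  exact congrArg hcls (Coch.ext fun l => by simp [par_val, pull_val])

end ser

theorem thV_zero {J : Type} {r : ℕ} (y : Fin (r + 1) → J) (w : Fin (r + 1) → ℂ) (n) :
    thV y w n 0 = 1 := by
  simp [thV, thS, map_prod]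

theorem eval_thV {J : Type} {r : ℕ} (y : Fin (r + 1) → J) (w : Fin (r + 1) → ℂ) (n m) :
    MvPolynomial.eval (fun x : J × ℕ => if x.2 = 0 then 1 else 0) (thV y w n m) =
      if m = 0 then 1 else 0 := by
  rw [thV, ← PowerSeries.coeff_map, thS, map_prod, Finset.prod_eq_one, PowerSeries.coeff_one]
  intro l _
  set f : PowerSeries (MvPolynomial (J × ℕ) ℂ) := PowerSeries.mk fun m =>
    if m = 0 then 1 else (w l - w n)⁻¹ ^ m • MvPolynomial.X (y l, m)
  have h1 := congrArg (PowerSeries.map (MvPolynomial.eval fun x : J × ℕ =>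
    if x.2 = 0 then (1 : ℂ) else 0)) (PowerSeries.mul_invOfUnit f 1 (by simp [f]))
  rwa [map_mul, map_one, show PowerSeries.map _ f = 1 from PowerSeries.ext fun m => by
    by_cases h : m = 0 <;> simp [f, h, PowerSeries.coeff_one], one_mul] at h1

section pb

variable {S S' Λ Λ' R R' J J' : Type} [Fintype S] [Fintype S'] [Fintype Λ] [Fintype Λ'] [Fintype R]
  [Fintype R'] [Fintype J] [Fintype J'] {F : Wt S Λ R J} {F' : Wt S' Λ' R' J'}

theorem exists_pb {f : (Λ → ℂ) × (J → ℂ) → (Λ' → ℂ) × (J' → ℂ)} {A A'} (hm : MapsTo f A A')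
    (hc : Continuous f)
    (he : ∀ t, IsUnit t → ∀ z, ∃ t', IsUnit t' ∧ f (F.actT t z) = F'.actT t' (f z)) :
    ∃ g : C(F.X A, F'.X A'), (∀ z, g (Quo.mk _ z) = Quo.mk _ ⟨f z, hm z.2⟩) ∧
      ∀ c, F.pb F' f A c = H.map g c := by
  let g : C(F.X A, F'.X A') := ⟨Quot.lift (fun z => Quo.mk _ ⟨f z, hm z.2⟩) fun x y ⟨t, ht, e⟩ =>
    let ⟨t', h1, h2⟩ := he t ht x
    Quot.sound ⟨t', h1, (congrArg f e).trans h2⟩, continuous_quot_lift _
      (continuous_quot_mk.comp ((hc.comp continuous_subtype_val).subtype_mk _))⟩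
  refine ⟨g, fun _ => rfl, fun c => ?_⟩
  have h := Classical.epsilon_spec (H.mk_surj c)
  rw [Wt.pb, dif_pos hm, hpull, show (fun x => Quo.mk F'.actT ⟨_, hm (Quo.out x).2⟩) = g from
    funext fun x => congrArg g (Quot.out_eq x), rep, ← H.map_hcls g (Classical.epsilon fun a : Zs _ => H.mk a = c).2,
    hcls_val, h]

end pb

section cop

variable {R J K : Type} [Fintype R] [Fintype J] [Fintype K] [DecidableEq R] {r : ℕ}
  {F : Fam Empty Empty R J K} {a : Fin (r + 1) → R → ℤ} {θ : Option R → ℤ}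

omit [DecidableEq R] in
theorem vx_sub (n : Fin (r + 1)) : ((F.proj a θ).vx n).cone ⊆ (F.proj a θ).cone :=
  fun _ h => (mem_cone_vx.1 h).1

theorem pb_rs_pb (hF : F.Tg) (n : Fin (r + 1)) (c : H (F.X F.cone)) :
    F.pb ((F.proj a θ).vx n).toWt (evσ (σv J n)) F.cone
      ((F.proj a θ).rs (vx_sub (F := F) (a := a) (θ := θ) n)
      ((F.proj a θ).pb F.toWt (fun z => (z.1, z.2 ∘ .inl)) _ c)) = c := by
  have e : ∀ z : (Empty → ℂ) × (J → ℂ), evσ (σv J n) z =
      (z.1, Sum.elim z.2 fun l => if l = n then 1 else 0) := fun z => by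
    refine Prod.ext rfl (funext fun j => ?_)
    rcases j with j | l
    · simp [evσ, evz, σv]
    · by_cases h : l = n <;> simp [evσ, evz, σv, h]
  obtain ⟨g, g1, g2⟩ := exists_pb (F := F.toWt) (F' := ((F.proj a θ).vx n).toWt)
    (f := evσ (σv J n)) (A := F.cone) (A' := ((F.proj a θ).vx n).cone)
    (fun z hz => ((pres_vx hF n).cone _).2 ⟨1, isUnit_one, z, hz,
      Prod.ext (Subsingleton.elim _ _) (by simp [Wt.actT])⟩)
    (by
      rw [funext e]
      exact continuous_fst.prodMk (continuous_pi fun j => by cases j <;> simp <;> fun_prop))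
    fun t ht z => by
      have h : ∀ s, t.2 s ≠ 0 := fun s => (Pi.isUnit_iff.1 (ht.map (RingHom.snd _ _)) s).ne_zero
      refine ⟨(1, fun o => o.elim (∏ s, t.2 s ^ (-a n s)) t.2), ?_, ?_⟩
      · refine Prod.isUnit_iff.2 ⟨isUnit_one, Pi.isUnit_iff.2 fun o => IsUnit.mk0 _ ?_⟩
        cases o
        exacts [Finset.prod_ne_zero_iff.2 fun s _ => zpow_ne_zero _ (h s), h _]
      · rw [e, e]
        refine Prod.ext (Subsingleton.elim _ _) (funext fun j => ?_)
        rcases j with j | l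
        · simp [Wt.actT, Fam.proj]
        · by_cases h' : l = n
          · simp [Wt.actT, Fam.proj, h', Finset.prod_ne_zero_iff, zpow_ne_zero _ (h _)]
          · simp [Wt.actT, h']
  obtain ⟨g', g3, g4⟩ := exists_pb (F := (F.proj a θ).toWt) (F' := F.toWt)
    (f := fun z => (z.1, z.2 ∘ .inl)) (A := (F.proj a θ).cone) (A' := F.cone)
    (fun z hz => ((mem_cone_proj hF.B hF.E hF.zer).1 hz).1) (by fun_prop) fun t ht z =>
      ⟨(1, t.2 ∘ some), Prod.isUnit_iff.2 ⟨isUnit_one, Pi.isUnit_iff.2 fun s =>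
        Pi.isUnit_iff.1 (ht.map (RingHom.snd _ _)) _⟩, Prod.ext (Subsingleton.elim _ _)
          (funext fun j => by simp [Wt.actT, Fam.proj])⟩
  rw [g2, g4, Wt.rs, H.mapA_apply, H.map_map, H.map_map]
  refine H.map_id (fun x => ?_) c
  obtain ⟨z, rfl⟩ := Quot.mk_surjective x
  change g' (Quo.incl _ (vx_sub n) (g (Quo.mk _ z))) = Quo.mk _ z
  rw [g1]
  exact (g3 _).trans (congrArg _ (Subtype.ext (by simp [e])))

variable {k : ℕ} {C : Deg.Coh} {i : C.H →ₗ[ℂ] H (F.X F.cone)}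
  {i₀ : C.H →ₗ[ℂ] H ((F.proj a θ).X (F.proj a θ).cone)} {w : Fin (r + 1) → ℂ}

variable (k i₀ w) in
/-- The twisted invariants of the fixed component `n`. -/
noncomputable abbrev Zv (n : Fin (r + 1)) (β : R → ℤ) (m : ℕ) : ℤ → Fock.S (C.p.fs ℕ) →ₗ[ℂ] ℂ :=
  ((F.proj a θ).vx n).ser0 k ((F.proj a θ).exT (thV .inr w n m)) C.p i₀ (dgV a n β)

variable (hSp : St.Spec) (hSe : St.SelC) (hF : F.Tg) (hE : (F.proj a θ).Good)
  (hk : (F.proj a θ).Big k) (e0 : IsEv C.p (parH _) i₀)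

include hSp hSe hF hE hk e0

theorem Zv_ev (hP : St.Par) (n β m j x) : Zv k i₀ w n β m j (par _ x) = Zv k i₀ w n β m j x :=
  ser0_par hSp hP (vx_nice hF hE n) (Fam.cp_empty _) (vx_big hk n)
    (exOk hSe (vx_nice hF hE n).toGood (vx_big hk n) _) (vx_sub n) e0 _ j x

theorem Zv_low (hS : St.Supp) (n β x) : ∃ J₀ : ℤ, ∀ m j, Zv k i₀ w n β m j x ≠ 0 → J₀ ≤ j :=
  (ser0_low hSp hS St.low (vx_nice hF hE n) (Fam.cp_empty _) (vx_big hk n) (vx_sub n) e0 _ x).imp
    fun _ h _ j => h _ j (exOk hSe (vx_nice hF hE n).toGood (vx_big hk n) _)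

omit hSp hSe hF hE hk e0 in
theorem dgV_zero (n) : dgV a n 0 = 0 := by simp [dgV_eq]; rfl

theorem Zv_one (n m j) : Zv k i₀ w n 0 m j 1 = ((F.proj a θ).vx n).cor k
    ((F.proj a θ).exT (thV .inr w n m)) 0 (F.proj a θ).cone (F.proj a θ).cone 0 j [] [] [] :=
  dgV_zero (a := a) n ▸ ser0_mon hSp (vx_nice hF hE n) (Fam.cp_empty _) (vx_big hk n)
    (exOk hSe (vx_nice hF hE n).toGood (vx_big hk n) _) (vx_sub n) e0 _ j []

theorem Zv_neg (hS : St.Supp) (n m j) (h : Zv k i₀ w n 0 m j 1 ≠ 0) : 0 ≤ j := by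
  rw [Zv_one hSp hSe hF hE hk e0] at h
  have := cor_low hS St.low (vx_nice hF hE n) (vx_big hk n) h
  simpa using this

theorem Zv_zero (hN : St.Norm) (n m) : Zv k i₀ w n 0 m 0 1 = if m = 0 then 1 else 0 := by
  rw [Zv_one hSp hSe hF hE hk e0, ← eval_thV Sum.inr w n m]
  exact hN _ 0 k _ _ _ 0 (vx_nice hF hE n) (proj_tg hF hE).B_eq (vx_big hk n)

omit hSp e0

variable (h0 : ∀ v, i₀ v = (F.proj a θ).pb F.toWt (fun z => (z.1, z.2 ∘ .inl)) _ (i v))
include h0

theorem Zv_eq (hR : St.Res) (hP : St.Pres) {k₀ : ℕ} (hk₀ : F.Big k₀) (n β) :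
    Zv k i₀ w n β 0 = F.ser0 k₀ F.ex0 C.p i β := by
  have hV := vx_nice hF hE n
  funext j
  rw [Zv, ser0_rs hR hV (Fam.cp_empty _) (vx_big hk n) (exOk hSe hV.toGood (vx_big hk n) _)
    (vx_sub n), thV_zero]
  refine ser0_congr fun l₁ l₂ => ?_
  have := (hP F _ _ _ _ _ k₀ k (fun _ _ _ => True) (fun _ _ _ => True) 1 (pres_vx hF n)
    (tg_abs hF).1 (.of_abs (vx_abs n).1 _) (tg_nice hF) hV (Fam.cp_empty _) hk₀ (vx_big hk n)
    (exOk hSe hF.toGood hk₀ _)
    (exOk hSe hV.toGood (vx_big hk n) _) (fun _ _ _ _ => Iff.rfl) Subset.rfl j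
    (l₁.map (Prod.map id (((F.proj a θ).rs (vx_sub n)).toLinearMap ∘ₗ i₀))) l₂).1 β
  rw [map_one, ← dgV_eq, List.map_map] at this
  refine this.trans (congrArg (F.cor k₀ _ 0 _ _ β j · l₂ []) (List.map_congr_left fun x _ => ?_))
  exact Prod.ext rfl ((congrArg _ (congrArg _ (h0 _))).trans (pb_rs_pb hF n _))

theorem Zv_qrr (hQ : St.Qrr) (hR : St.Res) (hH : St.PresH) (e0 : IsEv C.p (parH _) i₀)
    (hc : F.IsCoh C i) {ac : B.Act C.fr (Ch.Hev (F.X F.cone))}
    {c : Fin (r + 1) → Ch.Hev (F.X F.cone)} (hac : ∀ x v, i (ac.act x v) = x.1 * i v)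
    (hl : ∀ l, (c l).1 = F.lc _ 0 (a l)) (hw : Injective w)
    (lc_sub : ∀ χ χ', F.lc F.cone 0 (χ - χ') = F.lc _ 0 χ - F.lc _ 0 χ') (n) :
    ∃ κ : ℕ → ℂ, κ 0 = 0 ∧ ∀ β, QrrEq ac w c n κ (Zv k i₀ w n β) := by
  have hV := vx_nice hF hE n
  obtain ⟨g, g1, g2, -, g4⟩ := hH F _ _ _ _ _ (pres_vx hF n) (tg_abs hF).1 (tg_nice hF) hV
    (Fam.cp_empty _)
  set iV := ((F.proj a θ).rs (vx_sub (F := F) n)).toLinearMap ∘ₗ i₀
  have e : ∀ v, iV v = g.symm (i v) := fun v => g.eq_symm_apply.2 <|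
    (g1 _).trans ((congrArg _ (congrArg _ (h0 _))).trans (pb_rs_pb hF n _))
  obtain ⟨κ, h1, h2⟩ := hQ ((F.proj a θ).vx n) 0 k C iV ac
    (g.symm.toAlgHom.comp (Ch.Hev _).val) w c n .inr hV (vx_abs n) (proj_tg hF hE).B_eq
    (vx_big hk n)
    ⟨by rw [show ⇑iV = g.symm ∘ i from funext e]; exact g.symm.bijective.comp hc.bij,
      (isEv_map _).comp e0, fun x y => by rw [hc.η, e, e, ← map_mul g.symm, ← g2, g.apply_symm_apply],
      by rw [e, hc.one, map_one]⟩ hw (fun x v => by rw [e, e, hac, map_mul]; rfl)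
    fun l _ => g.symm_apply_eq.2 <| by
      rw [g4]
      refine (congrArg₂ _ (hl l) (hl n)).trans ((lc_sub _ _).symm.trans (congrArg _ ?_))
      funext s
      simp [Fam.proj, Mv, Pi.single_apply]
      ring
  refine ⟨κ, h1, fun β => ?_⟩
  rw [show Zv k i₀ w n β = _ from funext fun m => funext fun j => ser0_rs hR hV (Fam.cp_empty _)
    (vx_big hk n) (exOk hSe hV.toGood (vx_big hk n) _) (vx_sub n) _ j]
  exact h2 _

end cop

end PA

end Vale.Agent.P269
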