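import Vale.Agent.P287Q.G.PA.Defs

/-!
# Products of functionals over several copies
-/

namespace Vale.Agent.P269

open Function Fock Finset

namespace PrdP

open Deg Deg.Fn

/-- The normal form of an ordered product. -/
lemma exists_LR {M α : Type*} [Monoid M] (O : Submonoid M) {r : ℕ} (f : Fin r → α → M)
    (x : Fin r → α) (n : Fin r) (h : ∀ m ≠ n, ∀ a, f m a ∈ O) :
    ∃ L ∈ O, ∃ R ∈ O, ∀ y, (List.ofFn fun m => f m (update x n y m)).prod = L * f n y * R := by
  induction r with
  | zero => exact n.elim0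
  | succ r ih =>
    induction n using Fin.cases with
    | zero =>
      refine ⟨1, one_mem _, (List.ofFn fun m : Fin r => f m.succ (x m.succ)).prod,
        list_prod_mem fun z hz => ?_, fun y => ?_⟩
      · obtain ⟨m, rfl⟩ := List.mem_ofFn.1 hz
        exact h _ (Fin.succ_ne_zero m) _
      · simp only [List.ofFn_succ, List.prod_cons, update_self, one_mul,
          update_of_ne (Fin.succ_ne_zero _)]
    | succ k =>
      obtain ⟨L, hL, R, hR, e⟩ := ih (fun m => f m.succ) (Fin.tail x) k fun m hm =>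
        h _ (by simpa using hm)
      refine ⟨f 0 (x 0) * L, mul_mem (h _ (Fin.succ_ne_zero k).symm _) hL, R, hR, fun y => ?_⟩
      rw [List.ofFn_succ, List.prod_cons, update_of_ne (Fin.succ_ne_zero k).symm, mul_assoc,
        mul_assoc, ← mul_assoc L, ← e, ← Fin.tail_update_succ]
      rfl

section gen

variable {K : Type*} [CommRing K] {V W : Type*} [AddCommGroup V] [Module K V] [AddCommGroup W]
  [Module K W] {p : Par K V} {q : Par K W} {f : V →ₗ[K] W} {g : W →ₗ[K] V} (hf : IsEv p q f)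
  (hg : IsEv q p g)

include hf hg in
lemma isEv_e : IsEv q q (LinearMap.id - f ∘ₗ g) := IsEv.sub (fun _ => rfl) (hf.comp hg)

/-- The insertions on the other copies. -/
noncomputable def Oth : Subalgebra K (S q) := (Fock.map _ (isEv_e hf hg)).range

lemma map_mem {f' : V →ₗ[K] W} (hf' : IsEv p q f') (h : ∀ v, g (f' v) = 0) (y : S p) :
    Fock.map f' hf' y ∈ Oth hf hg := by
  have : (Fock.map _ (isEv_e hf hg)).comp (Fock.map f' hf') = Fock.map f' hf' :=
    hom_ext fun v => by simp [h]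
  exact ⟨_, DFunLike.congr_fun this y⟩

variable {hf hg}

lemma par_mem {z : S q} (hz : z ∈ Oth hf hg) : par q z ∈ Oth hf hg := by
  obtain ⟨y, rfl⟩ := hz
  exact ⟨par q y, (par_map _ _ _).symm⟩

lemma comm_oth (hfg : ∀ v, g (f v) = v) {T : Module.End K (S q)}
    (h : ∀ v, g v = 0 → ∀ w, T (ι q v * w) = ι q v * T w) {z : S q} (hz : z ∈ Oth hf hg)
    (w : S q) : T (z * w) = z * T w := by
  obtain ⟨y, rfl⟩ := hz
  change T (Fock.map _ (isEv_e hf hg) y * w) = Fock.map _ (isEv_e hf hg) y * T w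
  induction y using Fock.induction with
  | h1 => simp
  | hι v y hy => rw [map_mul (Fock.map _ _), map_ι, mul_assoc, h _ (by simp [hfg]), hy, mul_assoc]
  | hadd x y hx hy => simp only [map_add, add_mul, hx, hy]
  | hsmul c x hx => simp only [map_smul, smul_mul_assoc, hx]

variable [Algebra ℚ K]

lemma mul_eq (x R : S q) : x * R = (parS q).ev R * x + (parS q).od R * par q x := by
  rw [comm_ev ((parS q).σ_ev R), comm_od ((parS q).σ_od R), par_par, ← mul_add, Par.ev_add_od]

/-- An operator supported on one copy. -/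
lemma loc (hfg : ∀ v, g (f v) = v) {T : Module.End K (S q)} {T' : Module.End K (S p)}
    (h1 : ∀ v, g v = 0 → ∀ w, T (ι q v * w) = ι q v * T w)
    (h2 : ∀ y, T (Fock.map f hf y) = Fock.map f hf (T' y))
    (h3 : ∀ y, par p (T' y) = T' (par p y)) {L R : S q} (hL : L ∈ Oth hf hg) (hR : R ∈ Oth hf hg)
    (y : S p) : T (L * Fock.map f hf y * R) = L * Fock.map f hf (T' y) * R := by
  have he : (parS q).ev R ∈ Oth hf hg := Subalgebra.smul_mem _ (add_mem hR (par_mem hR)) _
  have ho : (parS q).od R ∈ Oth hf hg := Subalgebra.smul_mem _ (sub_mem hR (par_mem hR)) _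
  rw [mul_assoc, mul_assoc, comm_oth hfg h1 hL, mul_eq _ R, mul_eq _ R, map_add,
    comm_oth hfg h1 he, comm_oth hfg h1 ho, par_map, par_map, h2, h2, h3]

lemma dv_map {a : Module.End K V} {a' : Module.End K W} (ha : IsEv p p a) (ha' : IsEv q q a')
    (h : ∀ v, a' (f v) = f (a v)) (y : S p) :
    dv q a' (Fock.map f hf y) = Fock.map f hf (dv p a y) := by
  induction y using Fock.induction with
  | h1 => simp
  | hι v y hy => simp only [map_mul, map_ι, dv_ι_mul ha, dv_ι_mul ha', map_add, hy, h]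
  | hadd x y hx hy => simp only [map_add, hx, hy]
  | hsmul c x hx => simp only [map_smul, hx]

lemma con_map (φ : Module.Dual K W) (y : S p) :
    con q φ (Fock.map f hf y) = Fock.map f hf (con p (φ ∘ₗ f) y) := by
  induction y using Fock.induction' generalizing φ with
  | h1 => simp
  | hev v y hv hy =>
    have hw : q.σ (f v) = f v := by rw [hf, hv]
    simp only [map_mul, map_ι, con_ι_mul_ev _ hv, con_ι_mul_ev _ hw, map_add, map_smul, hy,
      LinearMap.comp_apply]
  | hod v y hv hy =>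
    have hw : q.σ (f v) = -f v := by rw [hf, hv, map_neg]
    have e : (φ ∘ₗ q.σ) ∘ₗ f = (φ ∘ₗ f) ∘ₗ p.σ := LinearMap.ext fun u => congrArg φ (hf u)
    simp only [map_mul, map_ι, con_ι_mul_od _ hv, con_ι_mul_od _ hw, map_add, map_smul, hy,
      LinearMap.comp_apply, e]
  | hadd x y hx hy => simp only [map_add, hx, hy]
  | hsmul c x hx => simp only [map_smul, hx]

lemma con2_map {Q : SymB p} {Q' : SymB q} (h : ∀ v, Q'.1 (f v) ∘ₗ f = Q.1 v) (y : S p) :
    con2 q Q' (Fock.map f hf y) = Fock.map f hf (con2 p Q y) := by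
  induction y using Fock.induction with
  | h1 => simp
  | hι v y hy => simp only [map_mul, map_ι, con2_ι_mul, map_add, hy, con_map, h]
  | hadd x y hx hy => simp only [map_add, hx, hy]
  | hsmul c x hx => simp only [map_smul, hx]

lemma Q0_loc (hfg : ∀ v, g (f v) = v) {d : W} (hd : q.σ d = d) {a : Module.End K V}
    (ha : IsEv p p a) {L R : S q} (hL : L ∈ Oth hf hg) (hR : R ∈ Oth hf hg) (y : S p) :
    Q0 q d (f ∘ₗ a ∘ₗ g) (L * Fock.map f hf y * R) = L * Fock.map f hf (Q0 p (g d) a y) * R := by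
  have ha' : IsEv q q (f ∘ₗ a ∘ₗ g) := hf.comp (ha.comp hg)
  refine loc hfg (fun v hv w => ?_) (fun y => ?_) (fun y => ?_) hL hR y
  · have := LinearMap.congr_fun (Q0_ml hd ha' v) w
    simpa [hv, sub_eq_zero] using this
  · rw [Q0_apply, Q0_apply, dv_map ha ha' fun v => by simp [hfg], map_sub, map_mul, map_ι]
    rfl
  · rw [Q0_apply, Q0_apply, map_sub, par_dv ha, map_mul, par_ι, ha, hg, hd]

lemma Qm_loc (hfg : ∀ v, g (f v) = v) {d : W} (hd : q.σ d = d) {Q : SymB p} {Q' : SymB q}
    (h : ∀ v, Q'.1 v = Q.1 (g v) ∘ₗ g) {L R : S q} (hL : L ∈ Oth hf hg) (hR : R ∈ Oth hf hg)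
    (y : S p) :
    Qm q d Q' (L * Fock.map f hf y * R) = L * Fock.map f hf (Qm p (g d) Q y) * R := by
  have e : ∀ v, Q'.1 v ∘ₗ f = Q.1 (g v) := fun v => LinearMap.ext fun u => by simp [h, hfg]
  refine loc hfg (fun v hv w => ?_) (fun y => ?_) (fun y => ?_) hL hR y
  · have := LinearMap.congr_fun (Qm_ml hd Q' v) w
    simpa [h, hv, sub_eq_zero] using this
  · rw [Qm_apply, Qm_apply, con2_map fun v => by rw [e, hfg], con_map, e, map_sub]
  · rw [Qm_apply, Qm_apply, map_sub, par_con2, par_con, SymB.σ_dil (by rw [hg, hd])]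

lemma exists_od {r : ℕ} (F : Fin r → S p →ₐ[K] S q) (hF : ∀ n y, par q (F n y) = F n (par p y))
    (n : Fin r) {y : S p} (hy : par p y = -y) (x : Fin r → S p) : ∃ x' : Fin r → S p,
      F n y * (List.ofFn fun m => F m (x m)).prod = (List.ofFn fun m => F m (x' m)).prod := by
  induction r with
  | zero => exact n.elim0
  | succ r ih =>
    induction n using Fin.cases with
    | zero =>
      exact ⟨Fin.cons (y * x 0) (Fin.tail x), by simp [List.ofFn_succ, mul_assoc, Fin.tail]⟩
    | succ k =>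
      obtain ⟨x', e⟩ := ih (fun m => F m.succ) (fun _ => hF _) k fun m => x m.succ
      refine ⟨Fin.cons (par p (x 0)) x', ?_⟩
      simp only [List.ofFn_succ, List.prod_cons, Fin.cons_zero, Fin.cons_succ]
      rw [← mul_assoc, comm_od (y := F _ y) (by rw [hF, hy, map_neg]), hF, mul_assoc, e]

variable {B : Type*} [Ring B] [Algebra K B] {s : SPar K B}

include hf in
lemma D_mul_of {G : Fn q s} (hG : ∀ v, D (f v) G = 0) (v : V) (F : Fn q s) :
    D (f v) (F * G) = D (f v) F * G := by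
  have e1 : q.ev (f v) = f (p.ev v) := by simp [Par.ev_apply, hf v]
  have e2 : q.od (f v) = f (p.od v) := by simp [Par.od_apply, hf v]
  rw [D_mul', e1, e2, hG, hG, mul_zero, mul_zero, add_zero, add_zero]

include hf in
lemma D_prod {l : List (Fn q s)} (h : ∀ G ∈ l, ∀ v, D (f v) G = 0) (v : V) :
    D (f v) l.prod = 0 := by
  induction l generalizing v with
  | nil => simp
  | cons G l ih =>
    rw [List.prod_cons, D_mul_of (hf := hf) (ih fun G' hG' => h _ (List.mem_cons_of_mem _ hG')),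
      h _ List.mem_cons_self, zero_mul]

lemma Dx_mul_of {G : Fn q s} (hG : ∀ v, D (f v) G = 0) (x : S p) (F : Fn q s) :
    Dx (Fock.map f hf x) (F * G) = Dx (Fock.map f hf x) F * G := by
  induction x using Fock.induction generalizing F with
  | h1 => simp
  | hι v x hx =>
    rw [map_mul (Fock.map _ _), map_ι, Dx_ι_mul, Dx_ι_mul, D_mul_of (hf := hf) hG, hx]
  | hadd x y hx hy => simp only [map_add, LinearMap.add_apply, add_mul, hx, hy]
  | hsmul c x hx => simp only [map_smul, LinearMap.smul_apply, smul_mul_assoc, hx]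

lemma mul_ap (hfg : ∀ v, g (f v) = v) (F : Fn p (SPar.triv K B)) {G : Fn q (SPar.triv K B)}
    (hG : ∀ v, D (f v) G = 0) (x : S p) {z : S q} (hz : z ∈ Oth hf hg) :
    (pull g hg F * G).ap (Fock.map f hf x * z) = F.ap x * G.ap z := by
  obtain ⟨y, rfl⟩ := hz
  have e : (Fock.map g hg).comp (Fock.map f hf) = AlgHom.id K _ := hom_ext fun v => by simp [hfg]
  have e' : Fock.map g hg (Fock.map f hf x) = x := DFunLike.congr_fun e x
  change _ = F.ap x * (pull _ (isEv_e hf hg) G).ap y
  rw [← Dx_ap, Dx_mul_of hG, Dx_pull, e']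
  change (pull _ (isEv_e hf hg) (pull g hg (Dx x F) * G)).ap y = _
  rw [map_mul, pull_pull _ _ _ _ 0 IsEv.zero fun v => by simp [hfg],
    pull_zero _ _ fun _ => rfl, cst_mul_ap rfl, Dx_ap, mul_one]

lemma prod_ap {r : ℕ} (f : Fin r → V →ₗ[K] W) (g : Fin r → W →ₗ[K] V)
    (hf : ∀ n, IsEv p q (f n)) (hg : ∀ n, IsEv q p (g n)) (hfg : ∀ n v, g n (f n v) = v)
    (h0 : ∀ n m, n ≠ m → ∀ v, g n (f m v) = 0) (Z : Fin r → Fn p (SPar.triv K B))
    (x : Fin r → S p) : (List.ofFn fun n => pull (g n) (hg n) (Z n)).prod.ap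
      (List.ofFn fun n => Fock.map (f n) (hf n) (x n)).prod =
        (List.ofFn fun n => (Z n).ap (x n)).prod := by
  induction r with
  | zero => simp
  | succ r ih =>
    simp only [List.ofFn_succ, List.prod_cons]
    rw [mul_ap (hfg 0), ih _ _ _ _ (fun _ => hfg _) fun n m h => h0 _ _ (by simpa using h)]
    · refine D_prod (hf := hf 0) fun G hG v => ?_
      obtain ⟨m, rfl⟩ := List.mem_ofFn.1 hG
      rw [D_pull, h0 _ _ (Fin.succ_ne_zero m), map_zero, LinearMap.zero_apply, map_zero]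
    · refine list_prod_mem fun z hz => ?_
      obtain ⟨m, rfl⟩ := List.mem_ofFn.1 hz
      exact map_mem _ _ _ (h0 _ _ (Fin.succ_ne_zero m).symm) _

end gen

section cmp

variable {K : Type*} [CommRing K] {H H' : Type*} [AddCommGroup H] [Module K H] [AddCommGroup H']
  [Module K H'] {p : Par K H} {ι : Type*} [Fintype ι] {fr : Frame p ι} {σ : Type} [Fintype σ]
  [DecidableEq σ] {A : Module.End K (LL H)}

open Finsupp.mapRange

lemma pos_mr (j : H →ₗ[K] H') (y : LL H) :
    pos K H' (linearMap j y) = linearMap j (pos K H y) := by ext; simp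

lemma up_mr (j : H →ₗ[K] H') (y : VV H) : linearMap j (up K H y) = up K H' (linearMap j y) := by
  ext i
  rcases lt_or_ge i 0 with h | h
  · simp [up_apply_neg _ h]
  · obtain ⟨m, rfl⟩ := Int.eq_ofNat_of_zero_le h; simp

omit [Fintype σ] in
lemma blk_cmp (n : σ) : Frame.blk (B.cmp n A) = linearMap (LinearMap.single K (fun _ => H) n) ∘ₗ
    Frame.blk A ∘ₗ linearMap (LinearMap.proj n) := LinearMap.ext fun v => by
  simp only [Frame.blk, B.cmp, LinearMap.comp_apply, pos_mr, up_mr]

omit [Fintype σ] in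
lemma pos_cmp (n : σ) (j : ℤ) (v : σ → H) : pos K _ (B.cmp n A (Finsupp.single j v)) =
    linearMap (LinearMap.single K (fun _ => H) n) (pos K H (A (Finsupp.single j (v n)))) := by
  rw [← pos_mr]
  simp [B.cmp]

lemma Ω_single (n : σ) (y : LL H) (y' : LL (σ → H)) :
    (fr.pi σ).Ω (linearMap (LinearMap.single K (fun _ => H) n) y) y' =
      fr.Ω y (linearMap (LinearMap.proj n : (σ → H) →ₗ[K] H) y') := by
  induction y using Finsupp.induction_linear with
  | zero => simp
  | add a b ha hb => simp only [map_add, LinearMap.add_apply, ha, hb]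
  | single i v =>
    rw [linearMap_apply, Finsupp.mapRange_single, Frame.Ω_single_left, Frame.Ω_single_left,
      Frame.pi_η, sum_eq_single n (fun m _ hm => by simp [hm]) (by simp)]
    simp

lemma neg_cmp (n : σ) (v w : VV (σ → H)) : (fr.pi σ).neg (B.cmp n A (up K _ v)) w =
    fr.neg (A (up K H (linearMap (LinearMap.proj n : (σ → H) →ₗ[K] H) v)))
      (linearMap (LinearMap.proj n : (σ → H) →ₗ[K] H) w) := by
  simp only [Frame.neg_apply, B.cmp, LinearMap.comp_apply, Ω_single, up_mr]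

lemma dil_pi (n : σ) : linearMap (LinearMap.proj n : (σ → H) →ₗ[K] H) (fr.pi σ).dil = fr.dil := by
  rw [Frame.dil, linearMap_apply, Finsupp.mapRange_single]
  rfl

lemma qf_cmp (hA : fr.Quad A) (n : σ) (v : VV (σ → H)) :
    ((fr.pi σ).qf (B.cmp n A)).1 v = (fr.pi σ).neg (B.cmp n A (up K _ v)) := by
  have : (fr.pi σ).neg ∘ₗ B.cmp n A ∘ₗ up K _ ∈ SymB ((p.pi σ).fs ℕ) := fun v w => by
    simp only [LinearMap.comp_apply, neg_cmp]
    refine (hA.mem_symB _ _).trans (congrArg (fun u => fr.neg (A (up K H u)) _) ?_)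
    ext; simp
  rw [Frame.qf, dif_pos this]
  rfl

end cmp

end PrdP

open PrdP Deg

variable {H : Type} [AddCommGroup H] [Module ℂ H] {p : Par ℂ H} {ι : Type} [Fintype ι]
  {fr : Frame p ι} {r : ℕ}

namespace PrdP

lemma isEv_proj (n : Fin r) :
    IsEv ((p.pi (Fin r)).fs ℕ) (p.fs ℕ) (vv (LinearMap.proj n : (Fin r → H) →ₗ[ℂ] H)) :=
  isEv_vv fun _ => rfl

lemma proj_single (n : Fin r) (v : VV H) : vv (LinearMap.proj n : (Fin r → H) →ₗ[ℂ] H)
    (vv (LinearMap.single ℂ (fun _ => H) n) v) = v := by ext; simp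

lemma proj_single_ne (n m : Fin r) (h : n ≠ m) (v : VV H) :
    vv (LinearMap.proj n : (Fin r → H) →ₗ[ℂ] H) (vv (LinearMap.single ℂ (fun _ => H) m) v) = 0 := by
  ext; simp [h]

lemma par_inc (n : Fin r) (y : S (p.fs ℕ)) : par _ (inc p n y) = inc p n (par _ y) :=
  par_map _ _ y

lemma prd_LR (x : Fin r → S (p.fs ℕ)) (n : Fin r) :
    ∃ L ∈ Oth (isEv_vv (isEv_single p n)) (isEv_proj n),
      ∃ R ∈ Oth (isEv_vv (isEv_single p n)) (isEv_proj n),
        ∀ y, prd p (update x n y) = L * inc p n y * R :=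
  exists_LR (Oth (isEv_vv (isEv_single p n)) (isEv_proj n)).toSubmonoid (fun m y => inc p m y) x n
    fun m hm y => map_mem _ _ _ (proj_single_ne n m hm.symm) y

end PrdP

theorem prd_one : prd p (fun _ : Fin r => 1) = 1 := by simp [prd]

theorem prd_add (x : Fin r → S (p.fs ℕ)) (n : Fin r) (y z : S (p.fs ℕ)) :
    prd p (update x n (y + z)) = prd p (update x n y) + prd p (update x n z) := by
  obtain ⟨L, -, R, -, e⟩ := prd_LR x n
  rw [e, e, e, map_add, mul_add, add_mul]

theorem prd_smul (x : Fin r → S (p.fs ℕ)) (n : Fin r) (a : ℂ) (y : S (p.fs ℕ)) :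
    prd p (update x n (a • y)) = a • prd p (update x n y) := by
  obtain ⟨L, -, R, -, e⟩ := prd_LR x n
  rw [e, e, map_smul, mul_smul_comm, smul_mul_assoc]

/-- An even element moves into the product. -/
theorem inc_mul_prd (x : Fin r → S (p.fs ℕ)) (n : Fin r) {y : S (p.fs ℕ)} (hy : par _ y = y) :
    inc p n y * prd p x = prd p (update x n (y * x n)) := by
  obtain ⟨L, -, R, -, e⟩ := prd_LR x n
  conv_lhs => rw [← update_eq_self n x]
  rw [e, e, map_mul, ← mul_assoc, ← mul_assoc, ← mul_assoc,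
    comm_ev (y := inc p n y) (by rw [par_inc, hy])]

namespace PrdP

lemma prd_span : Submodule.span ℂ (Set.range (prd p (r := r))) = ⊤ := by
  have key : ∀ (n : Fin r) (y : S (p.fs ℕ)), ∀ z ∈ Submodule.span ℂ (Set.range (prd p (r := r))),
      inc p n y * z ∈ Submodule.span ℂ (Set.range (prd p (r := r))) := by
    intro n y z hz
    induction hz using Submodule.span_induction with
    | mem z hz =>
      obtain ⟨x, rfl⟩ := hz
      induction y using (parS (p.fs ℕ)).induction with
      | hev y hy => exact Submodule.subset_span ⟨_, (inc_mul_prd x n hy).symm⟩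
      | hod y hy =>
        obtain ⟨x', e⟩ := exists_od (inc p) par_inc n hy x
        exact Submodule.subset_span ⟨x', e.symm⟩
      | hadd y z hy hz => rw [map_add, add_mul]; exact add_mem hy hz
    | zero => simp
    | add a b _ _ ha hb => rw [mul_add]; exact add_mem ha hb
    | smul c a _ ha => rw [mul_smul_comm]; exact Submodule.smul_mem _ _ ha
  refine Submodule.eq_top_iff'.2 fun y => ?_
  induction y using Fock.induction with
  | h1 => exact Submodule.subset_span ⟨_, prd_one⟩
  | hι v y hy =>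
    have e : Fock.ι ((p.pi (Fin r)).fs ℕ) v =
        ∑ n, inc p n (Fock.ι _ (vv (LinearMap.proj n : (Fin r → H) →ₗ[ℂ] H) v)) := by
      simp only [inc, map_ι]
      rw [← map_sum]
      refine congrArg _ (Finsupp.ext fun m => ?_)
      simp [Finsupp.finsetSum_apply, univ_sum_single]
    rw [e, sum_mul]
    exact Submodule.sum_mem _ fun n _ => key n _ y hy
  | hadd x y hx hy => exact add_mem hx hy
  | hsmul c x hx => exact Submodule.smul_mem _ _ hx

end PrdP

/-- The products span. -/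
@[elab_as_elim]
theorem prd_ind {P : S ((p.pi (Fin r)).fs ℕ) → Prop} (h : ∀ x, P (prd p x))
    (hadd : ∀ x y, P x → P y → P (x + y)) (hsmul : ∀ (a : ℂ) x, P x → P (a • x)) (y) : P y := by
  have hy : y ∈ Submodule.span ℂ (Set.range (prd p (r := r))) := by
    rw [prd_span]; trivial
  induction hy using Submodule.span_induction with
  | mem z hz => obtain ⟨x, rfl⟩ := hz; exact h x
  | zero => simpa using hsmul 0 _ (h fun _ => 1)
  | add a b _ _ ha hb => exact hadd a b ha hb
  | smul c a _ ha => exact hsmul c a ha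

theorem prd_ext {M : Type*} [AddCommGroup M] [Module ℂ M] {f g : S ((p.pi (Fin r)).fs ℕ) →ₗ[ℂ] M}
    (h : ∀ x, f (prd p x) = g (prd p x)) : f = g :=
  LinearMap.ext fun y => prd_ind h (fun x y hx hy => by rw [map_add, map_add, hx, hy])
    (fun a x hx => by rw [map_smul, map_smul, hx]) y

/-- The product of even functionals. -/
theorem exists_prodF {M : Type} [CommRing M] [Algebra ℂ M] (Z : Fin r → S (p.fs ℕ) →ₗ[ℂ] M)
    (hZ : ∀ n x, Z n (par _ x) = Z n x) :
    ∃ P : S ((p.pi (Fin r)).fs ℕ) →ₗ[ℂ] M, ∀ x, P (prd p x) = ∏ n, Z n (x n) :=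
  have _ := hZ
  ⟨_, fun x => (prod_ap _ _ (fun n => isEv_vv (isEv_single p n)) isEv_proj proj_single
    proj_single_ne (fun n => Fn.of _ (Z n)) x).trans List.prod_ofFn⟩

variable {A : Module.End ℂ (LL H)}

theorem q0_prd (hA : IsEv (p.fs ℤ) (p.fs ℤ) A) (n : Fin r) (x : Fin r → S (p.fs ℕ)) :
    (fr.pi _).q0 (B.cmp n A) (prd p x) = prd p (update x n (fr.q0 A (x n))) := by
  obtain ⟨L, hL, R, hR, e⟩ := prd_LR x n
  conv_lhs => rw [← update_eq_self n x]
  rw [e, e, Frame.q0_eq, Frame.q0_eq, blk_cmp, ← dil_pi (fr := fr) n]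
  exact Q0_loc (proj_single n) (fr.pi _).σ_dil ((isEv_pos p).comp (hA.comp (isEv_up p))) hL hR _

theorem qm_prd (hA : fr.Quad A) (n : Fin r) (x : Fin r → S (p.fs ℕ)) :
    (fr.pi _).qm (B.cmp n A) (prd p x) = prd p (update x n (fr.qm A (x n))) := by
  obtain ⟨L, hL, R, hR, e⟩ := prd_LR x n
  conv_lhs => rw [← update_eq_self n x]
  rw [e, e, hA.qm_eq, Frame.qm, ← qf_cmp hA, ← dil_pi (fr := fr) n]
  exact Qm_loc (proj_single n) (fr.pi _).σ_dil (fun v => LinearMap.ext fun w => by
    rw [qf_cmp hA, neg_cmp, hA.qf_val]; rfl) hL hR _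

namespace PrdP

lemma casT_cmp (n : Fin r) (m : ℕ) : (fr.pi _).casT (B.cmp n A) m = inc p n (fr.casT A m) := by
  rw [Frame.casT, Frame.casT, map_sum, Fintype.sum_prod_type,
    sum_eq_single n (fun k _ hk => sum_eq_zero fun a _ => ?_) (by simp)]
  · refine sum_congr rfl fun a _ => ?_
    simp [inc, pos_cmp, Frame.pi]
  · simp [pos_cmp, Frame.pi, hk.symm]

lemma cas_cmp (hA : fr.Quad A) (n : Fin r) : (fr.pi _).cas (B.cmp n A) = inc p n (fr.cas A) := by
  obtain ⟨N, hN⟩ := hA.fin
  rw [Frame.cas_eq hN, Frame.cas_eq (N := N) fun m hm v => by rw [pos_cmp, hN m hm, map_zero],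
    map_smul, map_sum]
  simp only [casT_cmp]

end PrdP

theorem q1_prd (hA : fr.Quad A) (n : Fin r) (x : Fin r → S (p.fs ℕ)) :
    (fr.pi _).q1 (B.cmp n A) (prd p x) = prd p (update x n (fr.q1 A (x n))) := by
  rw [Frame.q1, Frame.q1, LinearMap.mulLeft_apply, LinearMap.mulLeft_apply, cas_cmp hA,
    inc_mul_prd x n hA.par_cas]

end Vale.Agent.P269
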